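import Vale.Agent.P237.Higher.Four.Defs
import Vale.Agent.P237.Higher.Four.CertPos
import Vale.Agent.P237.Higher.Four.CertNeg

/-!
# P237: the pointwise certificate in dimension four

The integrand is linear in the slope and increasing in `X`; at the extreme slopes and the two lower
bounds of `X` it is `f² + t² - 1` times a rational function, positive by `CertPos` and `CertNeg`
in the charts `t = (1 - z²)/(1 + z²)`.
-/

open Real

namespace Vale.Agent.P237.Higher.Four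

/-- The part without `X`, at the slope of sign `s`, divided by `r ^ 2`. -/
noncomputable def core (t f g r s : ℝ) : ℝ :=
  -(kap4 + 5 * mu4 * t ^ 2) * ((f ^ 2 + f * g + g ^ 2) / (f + g))
    + mu4 * ((f ^ 4 + f ^ 3 * g + f ^ 2 * g ^ 2 + f * g ^ 3 + g ^ 4) / (f + g))
    + d3 t * r + d4 t * r ^ 2 + (s * f - t * r) * (3 * c3 t + 4 * c4 t * r) / (1 + t)

/-- The margin of the certificate. -/
noncomputable def eps : ℝ := 1 / 4096

lemma low_zero (s : ℤ) {v w : ℝ} (hv : 0 < v) (hw : 0 ≤ w) :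
    (lowZE s).val v w =
      4 * 1024 * 500000 * (1 + (v * w) ^ 2) ^ 7 * (1 + w) ^ 2 *
        (9 / 4 + core ((1 - (v * w) ^ 2) / (1 + (v * w) ^ 2)) (v * (1 + w ^ 2) / (1 + (v * w) ^ 2))
          (2 * (v * w) / (1 + (v * w) ^ 2)) (v * (1 - w ^ 2) / (1 + (v * w) ^ 2)) s - eps) := by
  have h1 : 1 + (v * w) ^ 2 ≠ 0 := by positivity
  have h2 : v * (1 + w) ^ 2 ≠ 0 := by positivity
  have e1 : v * (1 + w ^ 2) / (1 + (v * w) ^ 2) + 2 * (v * w) / (1 + (v * w) ^ 2) =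
      v * (1 + w) ^ 2 / (1 + (v * w) ^ 2) := by field_simp; ring
  have e2 : 1 + (1 - (v * w) ^ 2) / (1 + (v * w) ^ 2) = 2 / (1 + (v * w) ^ 2) := by
    field_simp; ring
  simp only [core, eps, e1, e2, kap4, mu4, c3, c4, d3, d4]
  simp only [lowZE, lBr, lK, lW, lPn, lF, lR, lT, lD, lz2, sum2, sum4, homP, C3, C4, D3, D4,
    PE.val, PE.val_pw, Int.cast_ofNat, Int.cast_one, Int.cast_neg, Int.cast_mul, Int.cast_zero]
  field_simp
  ring

lemma low_chord (s : ℤ) {v w : ℝ} (hv : 0 < v) (hw : 0 ≤ w) :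
    (lowXE s).val v w =
      (8 * (1 + (v * w) ^ 2) ^ 3 + (1 - (v * w) ^ 2) * ((v * (1 + w ^ 2)) ^ 2
          + v * (1 + w ^ 2) * (1 + (v * w) ^ 2) - 2 * (1 + (v * w) ^ 2) ^ 2
          + (1 - (v * w) ^ 2) ^ 2)) *
        ((lowZE s).val v w - 9216 * 500000 * (1 + (v * w) ^ 2) ^ 7 * (1 + w) ^ 2) +
      9216 * 500000 * (1 + (v * w) ^ 2) ^ 7 * (1 + w) ^ 2 *
        (8 * (1 + (v * w) ^ 2) ^ 3 + 3 * ((1 - (v * w) ^ 2) * ((v * (1 + w ^ 2)) ^ 2
          + v * (1 + w ^ 2) * (1 + (v * w) ^ 2) - 2 * (1 + (v * w) ^ 2) ^ 2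
          + (1 - (v * w) ^ 2) ^ 2))) := by
  simp only [lowXE, lowZE, lXN, lK, lW, lF, lT, lD, lz2,
    PE.val, PE.val_pw, Int.cast_ofNat, Int.cast_one, Int.cast_neg, Int.cast_mul]
  ring

lemma high_val (s : ℤ) {z u : ℝ} (hu : 0 < u) (hz : 0 ≤ z) :
    (highE s).val z u =
      (8 * (u * u * (1 + z ^ 2) ^ 3) + (1 - z ^ 2) * (3 * (1 + z ^ 2 * u ^ 2) ^ 2
          - 3 * (u * u * (1 + z ^ 2) ^ 2) + u * u * (1 - z ^ 2) ^ 2)) *
        (4 * 1024 * 500000 * u ^ 3 * (1 + z ^ 2) ^ 7 * (1 + z ^ 2 * u ^ 2 + 2 * (z * u))) *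
        (core ((1 - z ^ 2) / (1 + z ^ 2)) ((1 + z ^ 2 * u ^ 2) / (u * (1 + z ^ 2)))
          (2 * z / (1 + z ^ 2)) ((1 - z ^ 2 * u ^ 2) / (u * (1 + z ^ 2))) s - eps) +
      (8 * (u * u * (1 + z ^ 2) ^ 3) + 3 * ((1 - z ^ 2) * (3 * (1 + z ^ 2 * u ^ 2) ^ 2
          - 3 * (u * u * (1 + z ^ 2) ^ 2) + u * u * (1 - z ^ 2) ^ 2))) *
        (9216 * 500000 * u ^ 3 * (1 + z ^ 2) ^ 7 * (1 + z ^ 2 * u ^ 2 + 2 * (z * u))) := by
  have h1 : 1 + z ^ 2 ≠ 0 := by positivity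
  have h2 : 1 + z ^ 2 * u ^ 2 + 2 * (z * u) ≠ 0 := by positivity
  have e1 : (1 + z ^ 2 * u ^ 2) / (u * (1 + z ^ 2)) + 2 * z / (1 + z ^ 2) =
      (1 + z ^ 2 * u ^ 2 + 2 * (z * u)) / (u * (1 + z ^ 2)) := by field_simp
  have e2 : 1 + (1 - z ^ 2) / (1 + z ^ 2) = 2 / (1 + z ^ 2) := by field_simp; ring
  simp only [core, eps, e1, e2, kap4, mu4, c3, c4, d3, d4]
  simp only [highE, hBr, hXN, hK, hG, hPn, hF, hR, hT, hM, sum2, sum4, homP, C3, C4, D3, D4,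
    PE.val, PE.val_pw, Int.cast_ofNat, Int.cast_one, Int.cast_neg, Int.cast_mul, Int.cast_zero]
  field_simp
  ring

/-- The lower chart: `f ≤ 1`. -/
lemma low_pos {s : ℤ} (hs : s = 1 ∨ s = -1) {v w : ℝ} (hv : 0 < v) (hv1 : v ≤ 1) (hw : 0 ≤ w)
    (hw1 : w ≤ 1) {t f g r : ℝ} (ht : t = (1 - (v * w) ^ 2) / (1 + (v * w) ^ 2))
    (hf : f = v * (1 + w ^ 2) / (1 + (v * w) ^ 2)) (hg : g = 2 * (v * w) / (1 + (v * w) ^ 2))
    (hr : r = v * (1 - w ^ 2) / (1 + (v * w) ^ 2)) :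
    0 < 9 / 4 + core t f g r s ∨
      (0 < 4 + t * (f ^ 2 + f - 2 + t ^ 2) / 2 →
        0 < 9 / 4 * (1 + 2 * (t * (f ^ 2 + f - 2 + t ^ 2) / 2) /
          (4 + t * (f ^ 2 + f - 2 + t ^ 2) / 2)) + core t f g r s) := by
  have key : 0 ≤ (lowXE s).val v w ∨ 0 ≤ (lowZE s).val v w := by
    rcases hs with rfl | rfl
    · exact lowPos_ok ⟨hv.le, hv1⟩ ⟨hw, hw1⟩
    · exact lowNeg_ok ⟨hv.le, hv1⟩ ⟨hw, hw1⟩
  set D := 1 + (v * w) ^ 2 with hD
  have hD0 : 0 < D := by positivity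
  have hK : 0 < 4 * 1024 * 500000 * D ^ 7 * (1 + w) ^ 2 := by positivity
  have he : (0 : ℝ) < eps := by norm_num [eps]
  set N := (1 - (v * w) ^ 2) * ((v * (1 + w ^ 2)) ^ 2 + v * (1 + w ^ 2) * D - 2 * D ^ 2
    + (1 - (v * w) ^ 2) ^ 2) with hN
  have hb : t * (f ^ 2 + f - 2 + t ^ 2) / 2 = N / (2 * D ^ 3) := by
    rw [ht, hf, hN]; field_simp
  have hz := low_zero s hv hw
  rw [← hD, ← ht, ← hf, ← hg, ← hr] at hz
  rcases key with h | h
  · refine Or.inr fun h4 => ?_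
    have hc := low_chord s hv hw
    rw [← hD, ← hN] at hc
    rw [hc, hz] at h
    rw [hb] at h4 ⊢
    have hpos : 0 < 8 * D ^ 3 + N := by
      have := mul_pos h4 (show 0 < 2 * D ^ 3 by positivity)
      rw [add_mul, div_mul_cancel₀ _ (by positivity)] at this
      linarith
    have e : 1 + 2 * (N / (2 * D ^ 3)) / (4 + N / (2 * D ^ 3)) =
        (8 * D ^ 3 + 3 * N) / (8 * D ^ 3 + N) := by
      rw [show 4 + N / (2 * D ^ 3) = (8 * D ^ 3 + N) / (2 * D ^ 3) by field_simp; ring,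
        div_div_eq_mul_div, eq_div_iff hpos.ne', add_mul, div_mul_cancel₀ _ hpos.ne']
      field_simp
      ring
    rw [e]
    have h' : 0 ≤ (4 * 1024 * 500000 * D ^ 7 * (1 + w) ^ 2) * (8 * D ^ 3 + N) *
        (9 / 4 * ((8 * D ^ 3 + 3 * N) / (8 * D ^ 3 + N)) + core t f g r s - eps) := by
      refine le_of_le_of_eq h ?_
      field_simp
      ring
    have := nonneg_of_mul_nonneg_right h' (mul_pos hK hpos)
    linarith
  · rw [hz] at h
    have := nonneg_of_mul_nonneg_right h hK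
    exact Or.inl (by linarith)

/-- The upper chart: `1 ≤ f`. -/
lemma high_pos {s : ℤ} (hs : s = 1 ∨ s = -1) {z u : ℝ} (hu : 0 < u) (hu1 : u ≤ 1) (hz : 0 ≤ z)
    (hz1 : z ≤ 1) {t f g r : ℝ} (ht : t = (1 - z ^ 2) / (1 + z ^ 2))
    (hf : f = (1 + z ^ 2 * u ^ 2) / (u * (1 + z ^ 2))) (hg : g = 2 * z / (1 + z ^ 2))
    (hr : r = (1 - z ^ 2 * u ^ 2) / (u * (1 + z ^ 2)))
    (h4 : 0 < 4 + t * (3 * f ^ 2 - 3 + t ^ 2) / 2) :
    0 < 9 / 4 * (1 + 2 * (t * (3 * f ^ 2 - 3 + t ^ 2) / 2) /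
      (4 + t * (3 * f ^ 2 - 3 + t ^ 2) / 2)) + core t f g r s := by
  have key : 0 ≤ (highE s).val z u := by
    rcases hs with rfl | rfl
    · exact highPos_ok ⟨hz, hz1⟩ ⟨hu.le, hu1⟩
    · exact highNeg_ok ⟨hz, hz1⟩ ⟨hu.le, hu1⟩
  set M := 1 + z ^ 2 with hM
  have hM0 : 0 < M := by positivity
  set N := (1 - z ^ 2) * (3 * (1 + z ^ 2 * u ^ 2) ^ 2 - 3 * (u * u * M ^ 2)
    + u * u * (1 - z ^ 2) ^ 2) with hN
  have hb : t * (3 * f ^ 2 - 3 + t ^ 2) / 2 = N / (2 * (u * u * M ^ 3)) := by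
    rw [ht, hf, hN]; field_simp
  have hv := high_val s hu hz
  rw [← hM, ← ht, ← hf, ← hg, ← hr, ← hN] at hv
  rw [hv] at key
  rw [hb] at h4 ⊢
  set A := u * u * M ^ 3 with hA
  have hA0 : 0 < A := by positivity
  have hpos : 0 < 8 * A + N := by
    have := mul_pos h4 (show 0 < 2 * A by positivity)
    rw [add_mul, div_mul_cancel₀ _ (by positivity)] at this
    linarith
  set L := u ^ 3 * M ^ 7 * (1 + z ^ 2 * u ^ 2 + 2 * (z * u)) with hL
  have hL0 : 0 < L := by positivity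
  have h' : 0 ≤ 4 * 1024 * 500000 * L * (8 * A + N) *
      (9 / 4 * ((8 * A + 3 * N) / (8 * A + N)) + core t f g r s - eps) := by
    refine le_of_le_of_eq key ?_
    rw [hL]
    field_simp
    ring
  have e : 1 + 2 * (N / (2 * A)) / (4 + N / (2 * A)) = (8 * A + 3 * N) / (8 * A + N) := by
    rw [show 4 + N / (2 * A) = (8 * A + N) / (2 * A) by field_simp; ring,
      div_div_eq_mul_div, eq_div_iff hpos.ne', add_mul, div_mul_cancel₀ _ hpos.ne']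
    field_simp
    ring
  rw [e]
  have := nonneg_of_mul_nonneg_right h' (by positivity)
  have he : (0 : ℝ) < eps := by norm_num [eps]
  linarith

/-- `X ↦ 1 + 2 X / (4 + X)` increases above `-4`. -/
lemma ratio_mono {a X : ℝ} (ha : 0 < 4 + a) (h : a ≤ X) :
    1 + 2 * a / (4 + a) ≤ 1 + 2 * X / (4 + X) := by
  have hX : 0 < 4 + X := by linarith
  rw [add_le_add_iff_left, div_le_div_iff₀ ha hX]
  linarith

/-- The integrand at a slope sign. -/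
lemma low_integrand {t f D X g r : ℝ} {s : ℝ} (ht0 : 0 < t) (ht1 : t < 1) (hgd : g = √(1 - t ^ 2))
    (hrd : r = √(f ^ 2 + t ^ 2 - 1)) (hf0 : 0 < f) (hg0 : 0 ≤ g) (hr0 : 0 < r)
    (hg2 : g ^ 2 = 1 - t ^ 2) (hr2 : r ^ 2 = f ^ 2 + t ^ 2 - 1)
    (hsP : s * f * (3 * c3 t + 4 * c4 t * r) * r ≤
      (3 * c3 t + 4 * c4 t * r) * (f * ((1 - t ^ 2) * D + t * f))) :
    r ^ 2 * (9 / 4 * (1 + 2 * X / (4 + X)) + core t f g r s) ≤ integrand4 t f D X := by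
  set P := 3 * c3 t + 4 * c4 t * r with hP
  have ht2 : 0 < 1 - t ^ 2 := by nlinarith
  have hfg : f + g ≠ 0 := by positivity
  have e3 : (f ^ 2 + f * g + g ^ 2) / (f + g) * r ^ 2 = f ^ 3 - g ^ 3 := by
    rw [hr2, show f ^ 2 + t ^ 2 - 1 = f ^ 2 - g ^ 2 by linarith]; field_simp; ring
  have e5 : (f ^ 4 + f ^ 3 * g + f ^ 2 * g ^ 2 + f * g ^ 3 + g ^ 4) / (f + g) * r ^ 2 =
      f ^ 5 - g ^ 5 := by
    rw [hr2, show f ^ 2 + t ^ 2 - 1 = f ^ 2 - g ^ 2 by linarith]; field_simp; ring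
  have eD : (1 - t) * (3 * c3 t * r + 4 * c4 t * r ^ 2) * (f * D + t) =
      r / (1 + t) * (P * (f * ((1 - t ^ 2) * D + t * f)) - t * P * r ^ 2) := by
    rw [show P * (f * ((1 - t ^ 2) * D + t * f)) - t * P * r ^ 2 =
      P * (1 - t ^ 2) * (f * D + t) by linear_combination (-t * P) * hr2, hP]
    field_simp; ring
  have hT : r ^ 2 * ((s * f - t * r) * P / (1 + t)) ≤
      r / (1 + t) * (P * (f * ((1 - t ^ 2) * D + t * f)) - t * P * r ^ 2) := by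
    calc r ^ 2 * ((s * f - t * r) * P / (1 + t))
        = r / (1 + t) * (s * f * P * r - t * P * r ^ 2) := by ring
      _ ≤ _ := mul_le_mul_of_nonneg_left (by linarith) (by positivity)
  simp only [integrand4, ← hgd, ← hrd]
  rw [← hr2]
  rw [eD, core, ← hP]
  linear_combination hT - (kap4 + 5 * mu4 * t ^ 2) * e3 + mu4 * e5

/-- The inverse of the chart denominator. -/
lemma chart_den {t g : ℝ} (ht : 0 < 1 + t) (hg2 : g ^ 2 = 1 - t ^ 2) :
    1 + (g / (1 + t)) ^ 2 = 2 / (1 + t) := by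
  field_simp
  linear_combination hg2

/-- The chart `f ≤ 1`. -/
lemma branch_low {s : ℤ} (hs : s = 1 ∨ s = -1) {t f g r X : ℝ} (ht0 : 0 < t) (ht1 : t < 1)
    (hg0 : 0 ≤ g) (hg2 : g ^ 2 = 1 - t ^ 2) (hr0 : 0 < r) (hr2 : r ^ 2 = f ^ 2 + t ^ 2 - 1)
    (hgf : g < f) (hf1 : f ≤ 1) (hX0 : 0 ≤ X) (hXb : t * (f ^ 2 + f - 2 + t ^ 2) / 2 ≤ X) :
    0 < 9 / 4 * (1 + 2 * X / (4 + X)) + core t f g r s := by
  have ht : 0 < 1 + t := by linarith
  have hq0 : 0 < f + r := by linarith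
  have hden := chart_den ht hg2
  have hvw : (f + r) / (1 + t) * (g / (f + r)) = g / (1 + t) := by
    rw [div_mul_div_comm, mul_comm (f + r) g, mul_div_mul_right _ _ hq0.ne']
  have hv1 : (f + r) / (1 + t) ≤ 1 := by
    rw [div_le_one ht]
    have h2 : r ^ 2 ≤ t ^ 2 := by
      have : f ^ 2 ≤ 1 := pow_le_one₀ (by linarith) hf1
      linarith
    linarith [(pow_le_pow_iff_left₀ hr0.le ht0.le two_ne_zero).1 h2]
  have hsq : (g / (f + r)) ^ 2 = (f - r) / (f + r) := by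
    rw [div_pow, div_eq_div_iff (by positivity) hq0.ne']
    linear_combination (f + r) * hr2 + (f + r) * hg2
  have h1 : t = (1 - ((f + r) / (1 + t) * (g / (f + r))) ^ 2) /
      (1 + ((f + r) / (1 + t) * (g / (f + r))) ^ 2) := by
    rw [hvw, hden, div_div_eq_mul_div, eq_div_iff (by norm_num)]
    field_simp
    linear_combination hg2
  have h2 : f = (f + r) / (1 + t) * (1 + (g / (f + r)) ^ 2) /
      (1 + ((f + r) / (1 + t) * (g / (f + r))) ^ 2) := by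
    rw [hvw, hden, hsq]
    field_simp
    ring
  have h3 : g = 2 * ((f + r) / (1 + t) * (g / (f + r))) /
      (1 + ((f + r) / (1 + t) * (g / (f + r))) ^ 2) := by
    rw [hvw, hden]
    field_simp
  have h4 : r = (f + r) / (1 + t) * (1 - (g / (f + r)) ^ 2) /
      (1 + ((f + r) / (1 + t) * (g / (f + r))) ^ 2) := by
    rw [hvw, hden, hsq]
    field_simp
    ring
  have hh := low_pos hs (div_pos hq0 ht) hv1 (div_nonneg hg0 hq0.le)
    ((div_le_one hq0).2 (by linarith)) h1 h2 h3 h4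
  have h5 : 0 < 4 + t * (f ^ 2 + f - 2 + t ^ 2) / 2 := by
    have : 0 ≤ t * (f ^ 2 + f + t ^ 2) :=
      mul_nonneg ht0.le (by linarith [sq_nonneg f, sq_nonneg t])
    linarith
  rcases hh with h | h
  · have := ratio_mono (show (0 : ℝ) < 4 + 0 by norm_num) hX0
    norm_num at this
    linarith
  · have := ratio_mono h5 hXb
    linarith [h h5]

/-- The chart `1 ≤ f`. -/
lemma branch_high {s : ℤ} (hs : s = 1 ∨ s = -1) {t f g r X : ℝ} (ht0 : 0 < t) (ht1 : t < 1)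
    (hg0 : 0 ≤ g) (hg2 : g ^ 2 = 1 - t ^ 2) (hr0 : 0 < r) (hr2 : r ^ 2 = f ^ 2 + t ^ 2 - 1)
    (hf1 : 1 ≤ f) (hXc : t * (3 * f ^ 2 - 3 + t ^ 2) / 2 ≤ X) :
    0 < 9 / 4 * (1 + 2 * X / (4 + X)) + core t f g r s := by
  have ht : 0 < 1 + t := by linarith
  have hq0 : 0 < f + r := by linarith
  have hden := chart_den ht hg2
  have hf2 : 1 ≤ f ^ 2 := one_le_pow₀ hf1
  have hu1 : (1 + t) / (f + r) ≤ 1 := by
    rw [div_le_one hq0]
    have h2 : t ^ 2 ≤ r ^ 2 := by linarith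
    linarith [(pow_le_pow_iff_left₀ ht0.le hr0.le two_ne_zero).1 h2]
  have hz1 : g / (1 + t) ≤ 1 := by
    rw [div_le_one ht]
    nlinarith
  have hsq : (g / (1 + t)) ^ 2 * ((1 + t) / (f + r)) ^ 2 = (f - r) / (f + r) := by
    rw [← mul_pow, div_mul_div_cancel₀ ht.ne', div_pow, div_eq_div_iff (by positivity) hq0.ne']
    linear_combination (f + r) * hr2 + (f + r) * hg2
  have hb : (1 + t) / (f + r) * (1 + (g / (1 + t)) ^ 2) = 2 / (f + r) := by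
    rw [hden, div_mul_div_comm, mul_comm (f + r) (1 + t), mul_div_mul_left _ _ ht.ne']
  have h1 : t = (1 - (g / (1 + t)) ^ 2) / (1 + (g / (1 + t)) ^ 2) := by
    rw [hden, div_div_eq_mul_div, eq_div_iff (by norm_num)]
    field_simp
    linear_combination hg2
  have h2 : f = (1 + (g / (1 + t)) ^ 2 * ((1 + t) / (f + r)) ^ 2) /
      ((1 + t) / (f + r) * (1 + (g / (1 + t)) ^ 2)) := by
    rw [hsq, hb]
    field_simp
    ring
  have h3 : g = 2 * (g / (1 + t)) / (1 + (g / (1 + t)) ^ 2) := by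
    rw [hden]
    field_simp
  have h4 : r = (1 - (g / (1 + t)) ^ 2 * ((1 + t) / (f + r)) ^ 2) /
      ((1 + t) / (f + r) * (1 + (g / (1 + t)) ^ 2)) := by
    rw [hsq, hb]
    field_simp
    ring
  have h5 : 0 < 4 + t * (3 * f ^ 2 - 3 + t ^ 2) / 2 := by
    have : 0 ≤ t * (3 * f ^ 2 - 3 + t ^ 2) := mul_nonneg ht0.le (by linarith [sq_nonneg t])
    linarith
  have hh := high_pos hs (div_pos ht hq0) hu1 (div_nonneg hg0 ht.le) hz1 h1 h2 h3 h4 h5
  linarith [ratio_mono h5 hXc]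

theorem certFour : CertFour := by
  intro t f D X ht0 ht1 hf hD hX0 hXb hXc
  set g := √(1 - t ^ 2) with hgd
  have hg2 : g ^ 2 = 1 - t ^ 2 := Real.sq_sqrt (by nlinarith)
  have hg0 : 0 ≤ g := Real.sqrt_nonneg _
  have hf0 : 0 < f := lt_of_le_of_lt hg0 hf
  have hu : 0 < f ^ 2 + t ^ 2 - 1 := by nlinarith
  set r := √(f ^ 2 + t ^ 2 - 1) with hrd
  have hr2 : r ^ 2 = f ^ 2 + t ^ 2 - 1 := Real.sq_sqrt hu.le
  have hr0 : 0 < r := Real.sqrt_pos.2 hu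
  set P := 3 * c3 t + 4 * c4 t * r with hP
  obtain ⟨s, hs, hsP⟩ : ∃ s : ℤ, (s = 1 ∨ s = -1) ∧
      (s : ℝ) * f * P * r ≤ P * (f * ((1 - t ^ 2) * D + t * f)) := by
    obtain ⟨b1, b2⟩ := abs_le.1 hD
    rcases le_total 0 P with h | h
    · refine ⟨-1, Or.inr rfl, ?_⟩
      have := mul_le_mul_of_nonneg_left b1 (mul_nonneg h hf0.le)
      push_cast
      linarith
    · refine ⟨1, Or.inl rfl, ?_⟩
      have := mul_le_mul_of_nonpos_left b2 (mul_nonpos_of_nonpos_of_nonneg h hf0.le)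
      push_cast
      linarith
  refine lt_of_lt_of_le (mul_pos (pow_pos hr0 2) ?_)
    (low_integrand (X := X) ht0 ht1 hgd hrd hf0 hg0 hr0 hg2 hr2 hsP)
  rcases le_total f 1 with hf1 | hf1
  · exact branch_low hs ht0 ht1 hg0 hg2 hr0 hr2 hf hf1 hX0 hXb
  · exact branch_high hs ht0 ht1 hg0 hg2 hr0 hr2 hf1 (hXc hf1)

end Vale.Agent.P237.Higher.Four
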