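import Mathlib

/-!
# P237: the calibration for the profile lemma in dimension four

`calib t r` is a null Lagrangian, vanishing at `t = 0` and `t = 1`; `integrand4` is what remains to
be shown nonnegative pointwise.
-/

open Real

namespace Vale.Agent.P237.Higher.Four

/-- The multiplier of the moment hypothesis. -/
noncomputable def mu4 : ℝ := 162 / 1024

/-- An upper bound of `16 / (3 π)`. -/
noncomputable def kap4 : ℝ := 1697654 / 1000000

/-- The coefficient of `r ^ 3`. -/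
noncomputable def c3 (t : ℝ) : ℝ :=
  (156 * t - 1874 * t ^ 2 + 5761 * t ^ 3 - 8192 * t ^ 4 + 5517 * t ^ 5) / 1024

/-- The coefficient of `r ^ 4`. -/
noncomputable def c4 (t : ℝ) : ℝ :=
  (-16 * t + 1177 * t ^ 2 - 3993 * t ^ 3 + 5995 * t ^ 4 - 4734 * t ^ 5) / 1024

/-- The derivative of `(1 - t) * c3 t`. -/
noncomputable def d3 (t : ℝ) : ℝ :=
  (156 - 4060 * t + 22905 * t ^ 2 - 55812 * t ^ 3 + 68545 * t ^ 4 - 33102 * t ^ 5) / 1024

/-- The derivative of `(1 - t) * c4 t`. -/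
noncomputable def d4 (t : ℝ) : ℝ :=
  (-16 + 2386 * t - 15510 * t ^ 2 + 39952 * t ^ 3 - 53645 * t ^ 4 + 28404 * t ^ 5) / 1024

/-- The null Lagrangian. -/
noncomputable def calib (t r : ℝ) : ℝ := (1 - t) * c3 t * r ^ 3 + (1 - t) * c4 t * r ^ 4

lemma hasDerivAt_c3 (t : ℝ) : HasDerivAt (fun t => (1 - t) * c3 t) (d3 t) t := by
  have h : DifferentiableAt ℝ (fun t : ℝ => (1 - t) * c3 t) t := by simp only [c3]; fun_prop
  refine h.hasDerivAt.congr_deriv ?_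
  simp (disch := fun_prop) [c3, d3]
  ring

lemma hasDerivAt_c4 (t : ℝ) : HasDerivAt (fun t => (1 - t) * c4 t) (d4 t) t := by
  have h : DifferentiableAt ℝ (fun t : ℝ => (1 - t) * c4 t) t := by simp only [c4]; fun_prop
  refine h.hasDerivAt.congr_deriv ?_
  simp (disch := fun_prop) [c4, d4]
  ring

/-- The integrand: profile excess, moment term and derivative of `calib t r`, with
`r ^ 2 = f ^ 2 + t ^ 2 - 1`, slope `D` of `f`, and `X` below `3 / 2 * ∫ r ^ 2` over `(0, t)`. -/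
noncomputable def integrand4 (t f D X : ℝ) : ℝ :=
  9 / 4 * (f ^ 2 + t ^ 2 - 1) * (1 + 2 * X / (4 + X)) - kap4 * (f ^ 3 - √(1 - t ^ 2) ^ 3)
    - mu4 * (5 * t ^ 2 * (f ^ 3 - √(1 - t ^ 2) ^ 3) - (f ^ 5 - √(1 - t ^ 2) ^ 5))
    + d3 t * √(f ^ 2 + t ^ 2 - 1) ^ 3 + d4 t * √(f ^ 2 + t ^ 2 - 1) ^ 4
    + (1 - t) * (3 * c3 t * √(f ^ 2 + t ^ 2 - 1) + 4 * c4 t * √(f ^ 2 + t ^ 2 - 1) ^ 2)
        * (f * D + t)

/-- What the pointwise certificate has to provide. -/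
def CertFour : Prop :=
  ∀ t f D X : ℝ, 0 < t → t < 1 → √(1 - t ^ 2) < f →
    |(1 - t ^ 2) * D + t * f| ≤ √(f ^ 2 + t ^ 2 - 1) →
    0 ≤ X → t * (f ^ 2 + f - 2 + t ^ 2) / 2 ≤ X →
    (1 ≤ f → t * (3 * f ^ 2 - 3 + t ^ 2) / 2 ≤ X) →
    0 < integrand4 t f D X

lemma integrand4_eq_zero {t f D X : ℝ} (ht : t ^ 2 ≤ 1) (hf : f = √(1 - t ^ 2)) :
    integrand4 t f D X = 0 := by
  have h : f ^ 2 + t ^ 2 - 1 = 0 := by rw [hf, sq_sqrt (by linarith)]; ring
  simp only [integrand4, h, ← hf, sqrt_zero]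
  ring

end Vale.Agent.P237.Higher.Four
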