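import Vale.Agent.P237.Uniform.Shape
import Vale.Agent.P237.Four.Assembly
import Vale.Agent.P237.Higher.Defs
import Vale.Agent.P237.Higher.Four.Defs

/-!
# P237: the profile lemma in dimension four from the pointwise certificate

The calibrated deficit `G t` is continuous, vanishes at `0`, has nonnegative right derivative by the
certificate and bounds the deficit at `1`.
-/

open MeasureTheory Set Filter Topology Real intervalIntegral

namespace Vale.Agent.P237.Higher.Four

variable {f F D : ℝ → ℝ}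

/-- The continuous half profile of an even concave `f` above the semicircle. -/
theorem exists_half (hc : ConcaveOn ℝ (Icc (-1) 1) f) (he : ∀ t, f (-t) = f t)
    (hge : ∀ t ∈ Icc (-1 : ℝ) 1, √(1 - t ^ 2) ≤ f t) :
    ∃ F D : ℝ → ℝ, Continuous F ∧ AntitoneOn F (Icc 0 1) ∧ (∀ t ∈ Ico (0 : ℝ) 1, F t = f t) ∧
      0 ≤ F 1 ∧ (∀ t ∈ Ioo (0 : ℝ) 1, HasDerivWithinAt F (D t) (Ioi t) t ∧ D t ≤ 0) ∧
      ∀ (k : ℕ) (psi : ℝ → ℝ), Continuous psi → (∀ t, psi (-t) = psi t) →
        ∫ t in Icc (-1 : ℝ) 1, f t ^ k * psi t = 2 * ∫ t in (0 : ℝ)..1, F t ^ k * psi t := by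
  have ha := Uniform.antitone_of_even hc he
  have hpos : ∀ t ∈ Ico (0 : ℝ) 1, 0 < f t := fun t ht =>
    (Real.sqrt_pos.2 (by nlinarith [ht.1, ht.2])).trans_le
      (hge t ⟨by linarith [ht.1], ht.2.le⟩)
  have hbd : BddBelow (f '' Ico 0 1) := ⟨0, by rintro _ ⟨t, ht, rfl⟩; exact (hpos t ht).le⟩
  have hne : (f '' Ico (0 : ℝ) 1).Nonempty := ⟨_, 0, ⟨le_rfl, zero_lt_one⟩, rfl⟩
  set l := sInf (f '' Ico (0 : ℝ) 1) with hl
  have hll : ∀ t ∈ Ico (0 : ℝ) 1, l ≤ f t := fun t ht => csInf_le hbd ⟨t, ht, rfl⟩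
  set F₀ : ℝ → ℝ := fun t => if t < 1 then f t else l with hF₀
  have hFf : ∀ t, t < 1 → F₀ t = f t := fun t ht => if_pos ht
  have hF1 : F₀ 1 = l := if_neg (lt_irrefl 1)
  have hcont : ContinuousOn F₀ (Icc 0 1) := by
    intro t ht
    rcases ht.2.eq_or_lt with rfl | h1
    · have htd : Tendsto F₀ (𝓝[<] 1) (𝓝 l) := by
        refine tendsto_order.2 ⟨fun a hal => ?_, fun b hlb => ?_⟩
        · filter_upwards [Ioo_mem_nhdsLT (show (0 : ℝ) < 1 by norm_num)] with x hx
          rw [hFf x hx.2]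
          exact hal.trans_le (hll x ⟨hx.1.le, hx.2⟩)
        · obtain ⟨_, ⟨s, hs, rfl⟩, hsb⟩ := exists_lt_of_csInf_lt hne hlb
          filter_upwards [Ioo_mem_nhdsLT hs.2] with x hx
          rw [hFf x hx.2]
          exact (ha ⟨hs.1, hs.2.le⟩ ⟨hs.1.trans hx.1.le, hx.2.le⟩ hx.1.le).trans_lt hsb
      have hd : Tendsto F₀ (𝓝[Icc 0 1 \ {1}] 1) (𝓝 l) := htd.mono_left
        (nhdsWithin_mono _ fun x hx => lt_of_le_of_ne hx.1.2 hx.2)
      rw [← hF1] at hd
      exact continuousWithinAt_sdiff_self.1 hd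
    · have h := hc.continuousOn_interior.continuousAt (x := t) (by
        rw [interior_Icc]; exact Ioo_mem_nhds (by linarith [ht.1]) h1)
      refine (h.congr ?_).continuousWithinAt
      filter_upwards [Iio_mem_nhds h1] with x hx using (hFf x hx).symm
  have hanti₀ : AntitoneOn F₀ (Icc 0 1) := by
    intro s hs t ht hst
    rcases ht.2.eq_or_lt with rfl | h1
    · rw [hF1]
      rcases hs.2.eq_or_lt with rfl | h2
      · rw [hF1]
      · rw [hFf s h2]; exact hll s ⟨hs.1, h2⟩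
    · rw [hFf t h1, hFf s (hst.trans_lt h1)]
      exact ha hs ht hst
  set F : ℝ → ℝ := IccExtend (zero_le_one' ℝ) ((Icc (0 : ℝ) 1).domRestrict F₀) with hF
  have hFF : ∀ t ∈ Icc (0 : ℝ) 1, F t = F₀ t := fun t ht => IccExtend_of_mem _ _ ht
  have hFe : ∀ t ∈ Ico (0 : ℝ) 1, F t = f t := fun t ht => by
    rw [hFF t ⟨ht.1, ht.2.le⟩, hFf t ht.2]
  have hFc : Continuous F := hcont.domRestrict.comp continuous_projIcc
  have hanti : AntitoneOn F (Icc 0 1) := fun s hs t ht hst => by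
    rw [hFF s hs, hFF t ht]; exact hanti₀ hs ht hst
  set D : ℝ → ℝ := fun t => derivWithin F (Ioi t) t with hD
  have hder : ∀ t ∈ Ioo (0 : ℝ) 1, HasDerivWithinAt F (D t) (Ioi t) t := by
    intro t ht
    have h1 := hc.neg.differentiableWithinAt_Ioi_of_mem_interior (x := t) (by
      rw [interior_Icc]; exact ⟨by linarith [ht.1], ht.2⟩)
    have h2 : DifferentiableWithinAt ℝ f (Ioi t) t := by simpa using h1.neg
    refine (h2.congr_of_eventuallyEq ?_ (hFe t ⟨ht.1.le, ht.2⟩)).hasDerivWithinAt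
    filter_upwards [Ioo_mem_nhdsGT ht.2] with x hx using hFe x ⟨ht.1.le.trans hx.1.le, hx.2⟩
  have hdnp : ∀ t ∈ Ioo (0 : ℝ) 1, D t ≤ 0 := by
    intro t ht
    have h := (hasDerivWithinAt_iff_tendsto_slope' (s := Ioi t) (fun h => lt_irrefl t h)).1 (hder t ht)
    refine le_of_tendsto h ?_
    filter_upwards [Ioo_mem_nhdsGT ht.2] with x hx
    rw [slope_def_field]
    exact div_nonpos_of_nonpos_of_nonneg (sub_nonpos.2
      (hanti (Ioo_subset_Icc_self ht) ⟨ht.1.le.trans hx.1.le, hx.2.le⟩ hx.1.le))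
      (sub_nonneg.2 hx.1.le)
  refine ⟨F, D, hFc, hanti, hFe, ?_, fun t ht => ⟨hder t ht, hdnp t ht⟩, ?_⟩
  · rw [hFF 1 (right_mem_Icc.2 zero_le_one), hF1]
    exact le_csInf hne fun _ ⟨t, ht, e⟩ => e ▸ (hpos t ht).le
  intro k psi hp hev
  have hae : ∀ᵐ t : ℝ, t ∈ uIoc (0 : ℝ) 1 → f t ^ k * psi t = F t ^ k * psi t := by
    have h1 : ∀ᵐ t : ℝ, t ≠ 1 := by simp [ae_iff]
    filter_upwards [h1] with t h ht
    rw [uIoc_of_le zero_le_one] at ht
    rw [hFe t ⟨ht.1.le, lt_of_le_of_ne ht.2 h⟩]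
  have i1 : IntervalIntegrable (fun t => f t ^ k * psi t) volume 0 1 := by
    refine (((hFc.pow k).mul hp).intervalIntegrable 0 1).congr_ae ?_
    exact ((ae_restrict_iff' measurableSet_uIoc).2 hae).mono fun t h => h.symm
  have i2 : IntervalIntegrable (fun t => f t ^ k * psi t) volume (-1) 0 := by
    have h := (IntervalIntegrable.iff_comp_neg).1 i1
    simp only [he, hev, neg_zero] at h
    exact h.symm
  rw [integral_Icc_eq_integral_Ioc, ← intervalIntegral.integral_of_le (by norm_num : (-1 : ℝ) ≤ 1),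
    ← integral_add_adjacent_intervals i2 i1]
  have e : ∫ t in (-1 : ℝ)..0, f t ^ k * psi t = ∫ t in (0 : ℝ)..1, f t ^ k * psi t := by
    have := integral_comp_neg (a := (0 : ℝ)) (b := 1) (fun t => f t ^ k * psi t)
    simp only [he, hev, neg_zero] at this
    exact this.symm
  rw [e, integral_congr_ae hae]
  ring

/-- The tangent line of a concave function, taken from the right derivative, lies above it. -/
lemma le_tangent (hc : ConcaveOn ℝ (Icc (-1) 1) f) {t d s : ℝ} (ht : t ∈ Ioo (-1 : ℝ) 1)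
    (hd : HasDerivWithinAt f d (Ioi t) t) (hs : s ∈ Ioo (-1 : ℝ) 1) :
    f s ≤ f t + d * (s - t) := by
  rcases lt_trichotomy s t with h | rfl | h
  · have hl := (hasDerivWithinAt_iff_tendsto_slope' (s := Ioi t) (fun h => lt_irrefl t h)).1 hd
    have hle : d ≤ slope f t s := le_of_tendsto hl (by
      filter_upwards [Ioo_mem_nhdsGT ht.2] with w hw
      exact hc.slope_anti (x := t) ⟨ht.1.le, ht.2.le⟩ ⟨⟨hs.1.le, hs.2.le⟩, h.ne⟩
        ⟨⟨by linarith [ht.1, hw.1], hw.2.le⟩, hw.1.ne'⟩ (h.trans hw.1).le)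
    rw [slope_def_field, le_div_iff_of_neg (by linarith)] at hle
    linarith
  · simp
  · have hl := (hasDerivWithinAt_iff_tendsto_slope' (s := Ioi t) (fun h => lt_irrefl t h)).1 hd
    have hle : slope f t s ≤ d := ge_of_tendsto hl (by
      filter_upwards [Ioo_mem_nhdsGT h] with w hw
      exact hc.slope_anti (x := t) ⟨ht.1.le, ht.2.le⟩
        ⟨⟨by linarith [ht.1, hw.1], by linarith [hs.2, hw.2]⟩, hw.1.ne'⟩
        ⟨⟨hs.1.le, hs.2.le⟩, h.ne'⟩ hw.2.le)
    rw [slope_def_field, div_le_iff₀ (by linarith)] at hle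
    linarith

/-- The slope constraint of a concave function above the semicircle. -/
lemma slope_bound {t y d : ℝ} (ht : t ^ 2 ≤ 1)
    (h : ∀ s ∈ Ioo (-1 : ℝ) 1, √(1 - s ^ 2) ≤ y + d * (s - t)) :
    |(1 - t ^ 2) * d + t * y| ≤ √(y ^ 2 + t ^ 2 - 1) := by
  set w := √(1 + d ^ 2) with hw
  have hw2 : w ^ 2 = 1 + d ^ 2 := Real.sq_sqrt (by positivity)
  have hw0 : 0 < w := Real.sqrt_pos.2 (by positivity)
  have hs : -d / w ∈ Ioo (-1 : ℝ) 1 := by
    have h1 : |d| < w := by
      rw [hw, ← Real.sqrt_sq_eq_abs]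
      exact Real.sqrt_lt_sqrt (sq_nonneg _) (by linarith)
    obtain ⟨h2, h3⟩ := abs_lt.1 h1
    rw [mem_Ioo, lt_div_iff₀ hw0, div_lt_one hw0]
    exact ⟨by linarith, by linarith⟩
  have hh := h _ hs
  have e : √(1 - (-d / w) ^ 2) = 1 / w := by
    rw [show 1 - (-d / w) ^ 2 = (1 / w) ^ 2 by field_simp; linarith, Real.sqrt_sq (by positivity)]
  rw [e] at hh
  have key : w ≤ y - d * t := by
    have : y + d * (-d / w - t) = y - d * t - d ^ 2 / w := by ring
    rw [this] at hh
    have e2 : w = 1 / w + d ^ 2 / w := by field_simp; linarith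
    linarith
  have key2 : 1 + d ^ 2 ≤ (y - d * t) ^ 2 := hw2 ▸ pow_le_pow_left₀ hw0.le key 2
  refine Real.le_sqrt_of_sq_le ?_
  rw [sq_abs]
  nlinarith [mul_le_mul_of_nonneg_left key2 (show 0 ≤ 1 - t ^ 2 by linarith)]

/-- A continuous function with nonnegative right derivative on `(0,1)` increases on `[0,1]`. -/
lemma mono_of_right_deriv {G G' : ℝ → ℝ} (hG : Continuous G)
    (hd : ∀ t ∈ Ioo (0 : ℝ) 1, HasDerivWithinAt G (G' t) (Ioi t) t ∧ 0 ≤ G' t)
    {a b : ℝ} (ha : 0 ≤ a) (hab : a ≤ b) (hb : b ≤ 1) : G a ≤ G b := by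
  have key : ∀ x y, 0 < x → x ≤ y → y < 1 → G x ≤ G y := by
    intro x y hx hxy hy
    have := image_le_of_deriv_right_le_deriv_boundary (f := fun s => -G s) (f' := fun s => -G' s)
      hG.neg.continuousOn (a := x) (b := y)
      (fun s hs => (hd s ⟨hx.trans_le hs.1, hs.2.trans hy⟩).1.Ici_of_Ioi.neg)
      (B := fun _ => -G x) (B' := fun _ => 0) (le_refl _) continuousOn_const
      (fun s _ => hasDerivWithinAt_const s _ _)
      (fun s hs => neg_nonpos.2 (hd s ⟨hx.trans_le hs.1, hs.2.trans hy⟩).2)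
      (right_mem_Icc.2 hxy)
    linarith
  rcases hab.eq_or_lt with rfl | hlt
  · exact le_rfl
  have h1 : Tendsto G (𝓝[>] a) (𝓝 (G a)) := hG.continuousWithinAt
  have h2 : Tendsto G (𝓝[<] b) (𝓝 (G b)) := hG.continuousWithinAt
  refine le_of_tendsto h1 ?_
  filter_upwards [Ioo_mem_nhdsGT hlt] with x hx
  refine ge_of_tendsto h2 ?_
  filter_upwards [Ioo_mem_nhdsLT hx.2] with y hy
  exact key x y (ha.trans_lt hx.1) hy.1.le (hy.2.trans_le hb)

/-- `∫₀¹ (1 - t²)^(k/2)` is half the integral over `[-1,1]`. -/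
lemma half_semi (k : ℕ) (psi : ℝ → ℝ) (hp : Continuous psi) (hev : ∀ t, psi (-t) = psi t) :
    ∫ t in Icc (-1 : ℝ) 1, √(1 - t ^ 2) ^ k * psi t =
      2 * ∫ t in (0 : ℝ)..1, √(1 - t ^ 2) ^ k * psi t := by
  rw [integral_Icc_eq_integral_Ioc, ← intervalIntegral.integral_of_le (by norm_num : (-1 : ℝ) ≤ 1),
    ← integral_add_adjacent_intervals (b := 0) (Continuous.intervalIntegrable (by fun_prop) _ _)
      (Continuous.intervalIntegrable (by fun_prop) _ _)]
  have e : ∫ t in (-1 : ℝ)..0, √(1 - t ^ 2) ^ k * psi t =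
      ∫ t in (0 : ℝ)..1, √(1 - t ^ 2) ^ k * psi t := by
    have := integral_comp_neg (a := (0 : ℝ)) (b := 1) (fun t => √(1 - t ^ 2) ^ k * psi t)
    simp only [neg_sq, hev, neg_zero] at this
    exact this.symm
  rw [e]
  ring

lemma integral_semi_three : ∫ t in (0 : ℝ)..1, √(1 - t ^ 2) ^ 3 = 3 * π / 16 := by
  have h := Full.integral_semi_pow (show 0 < 3 by norm_num)
  have k3 : Statement.ballVol 3 = 4 / 3 * π := by rw [ballVol_rec 0, ballVol_one]; push_cast; ring
  have k4 : Statement.ballVol (3 + 1) = π ^ 2 / 2 := by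
    rw [show 3 + 1 = 1 + 3 from rfl, ballVol_rec 1, ballVol_two]; push_cast; ring
  have h2 := half_semi 3 (fun _ => 1) continuous_const fun _ => rfl
  simp only [mul_one] at h2
  rw [h2, k3, k4] at h
  have := Real.pi_pos
  field_simp at h ⊢
  linarith

lemma integral_semi_five :
    ∫ t in (0 : ℝ)..1, √(1 - t ^ 2) ^ 5 = ∫ t in (0 : ℝ)..1, 5 * t ^ 2 * √(1 - t ^ 2) ^ 3 := by
  have i1 : Continuous fun t : ℝ => √(1 - t ^ 2) ^ 5 := by fun_prop
  have i2 : Continuous fun t : ℝ => 5 * t ^ 2 * √(1 - t ^ 2) ^ 3 := by fun_prop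
  have h := integral_eq_sub_of_hasDerivAt_of_le zero_le_one
    (f := fun t => t * √(1 - t ^ 2) ^ 5)
    (f' := fun t => √(1 - t ^ 2) ^ 5 - 5 * t ^ 2 * √(1 - t ^ 2) ^ 3)
    (by fun_prop) (fun t ht => ?_) ((i1.sub i2).intervalIntegrable _ _)
  · rw [intervalIntegral.integral_sub (i1.intervalIntegrable _ _) (i2.intervalIntegrable _ _)] at h
    simp at h
    linarith
  have hp : 0 < 1 - t ^ 2 := by nlinarith [ht.1, ht.2]
  have hs := ((hasDerivAt_pow 2 t).const_sub 1).sqrt hp.ne'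
  refine ((hasDerivAt_id t).mul (hs.pow 5)).congr_deriv ?_
  have hq : √(1 - t ^ 2) ≠ 0 := (Real.sqrt_pos.2 hp).ne'
  simp
  field_simp
  ring

/-- `(1 + X)^(1/2) ≥ 1 + 2X/(4+X)`. -/
lemma pade {X : ℝ} (hX : 0 ≤ X) : 1 + 2 * X / (4 + X) ≤ √(1 + X) := by
  refine Real.le_sqrt_of_sq_le ?_
  rw [one_add_div (by linarith : (4 + X) ≠ 0), div_pow, div_le_iff₀ (by positivity)]
  nlinarith [pow_nonneg hX 3]

/-- **The profile lemma in dimension four.** -/
theorem profileDim_two (hcert : CertFour) : Full.ProfileDim 2 := by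
  intro f hc he hge hmom
  obtain ⟨F, D, hFc, hanti, hFe, hF1, hder, key⟩ := exists_half hc he hge
  have hgF : ∀ t ∈ Icc (0 : ℝ) 1, √(1 - t ^ 2) ≤ F t := fun t ht => by
    rcases ht.2.eq_or_lt with rfl | h
    · simpa using hF1
    · rw [hFe t ⟨ht.1, h⟩]; exact hge t ⟨by linarith [ht.1], ht.2⟩
  set r2 : ℝ → ℝ := fun t => F t ^ 2 + t ^ 2 - 1 with hr2
  have hr2c : Continuous r2 := by fun_prop
  have hr0 : ∀ t ∈ Icc (0 : ℝ) 1, 0 ≤ r2 t := fun t ht => by
    have h1 := pow_le_pow_left₀ (Real.sqrt_nonneg _) (hgF t ht) 2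
    rw [Real.sq_sqrt (by nlinarith [ht.1, ht.2])] at h1
    simp only [hr2]; linarith
  set J : ℝ → ℝ := fun t => 3 / 2 * ∫ s in (0 : ℝ)..t, r2 s with hJ
  have hJd : ∀ t, HasDerivAt J (3 / 2 * r2 t) t := fun t =>
    (intervalIntegral.integral_hasDerivAt_right (hr2c.intervalIntegrable _ _)
      (hr2c.stronglyMeasurableAtFilter _ _) hr2c.continuousAt).const_mul _
  have hJc : Continuous J := continuous_iff_continuousAt.2 fun t => (hJd t).continuousAt
  have hJ0 : ∀ t ∈ Icc (0 : ℝ) 1, 0 ≤ J t := fun t ht =>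
    mul_nonneg (by norm_num) (integral_nonneg ht.1 fun s hs => hr0 s ⟨hs.1, hs.2.trans ht.2⟩)
  -- the terms without slope
  set q : ℝ → ℝ := fun s => -(16 / (3 * π)) * (F s ^ 3 - √(1 - s ^ 2) ^ 3)
    - mu4 * (5 * s ^ 2 * (F s ^ 3 - √(1 - s ^ 2) ^ 3) - (F s ^ 5 - √(1 - s ^ 2) ^ 5)) with hq
  have hqc : Continuous q := by fun_prop
  set G : ℝ → ℝ := fun t => (1 + J t) ^ (3 / 2 : ℝ) - 1 + (∫ s in (0 : ℝ)..t, q s)
    + ((1 - t) * c3 t * r2 t ^ (3 / 2 : ℝ) + (1 - t) * c4 t * r2 t ^ 2) with hG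
  have hGc : Continuous G := by
    have h1 : Continuous fun t => (1 + J t) ^ (3 / 2 : ℝ) :=
      (continuous_const.add hJc).rpow_const fun _ => Or.inr (by norm_num)
    have h2 : Continuous fun t => r2 t ^ (3 / 2 : ℝ) :=
      hr2c.rpow_const fun _ => Or.inr (by norm_num)
    have h3 : Continuous c3 := by unfold c3; fun_prop
    have h4 : Continuous c4 := by unfold c4; fun_prop
    have h5 : Continuous fun t => ∫ s in (0 : ℝ)..t, q s :=
      intervalIntegral.continuous_primitive (fun _ _ => hqc.intervalIntegrable _ _) 0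
    simp only [hG]
    fun_prop
  set G' : ℝ → ℝ := fun t => 9 / 4 * r2 t * √(1 + J t) + q t
    + (d3 t * √(r2 t) ^ 3 + d4 t * √(r2 t) ^ 4
      + (1 - t) * (3 * c3 t * √(r2 t) + 4 * c4 t * √(r2 t) ^ 2) * (F t * D t + t)) with hG'
  have hGd : ∀ t ∈ Ioo (0 : ℝ) 1, HasDerivWithinAt G (G' t) (Ioi t) t := by
    intro t ht
    have hr : 0 ≤ r2 t := hr0 t (Ioo_subset_Icc_self ht)
    have hj : 0 ≤ 1 + J t := by linarith [hJ0 t (Ioo_subset_Icc_self ht)]
    have d1 : HasDerivAt (fun t => (1 + J t) ^ (3 / 2 : ℝ) - 1)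
        (9 / 4 * r2 t * √(1 + J t)) t := by
      refine ((((hJd t).const_add 1).rpow_const (Or.inr (by norm_num))).sub_const 1).congr_deriv ?_
      rw [Real.sqrt_eq_rpow, show (3 / 2 : ℝ) - 1 = 1 / 2 by norm_num]
      ring
    have d2 : HasDerivAt (fun t => ∫ s in (0 : ℝ)..t, q s) (q t) t :=
      intervalIntegral.integral_hasDerivAt_right (hqc.intervalIntegrable _ _)
        (hqc.stronglyMeasurableAtFilter _ _) hqc.continuousAt
    have d3' : HasDerivWithinAt r2 (2 * (F t * D t + t)) (Ioi t) t := by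
      refine (((((hder t ht).1).pow 2).add
        ((hasDerivAt_pow 2 t).hasDerivWithinAt)).sub_const 1).congr_deriv ?_
      simp
      ring
    have d4' := (d3'.rpow_const (p := (3 / 2 : ℝ)) (Or.inr (by norm_num)))
    refine ((d1.add d2).hasDerivWithinAt.add
      (((hasDerivAt_c3 t).hasDerivWithinAt.mul d4').add
        ((hasDerivAt_c4 t).hasDerivWithinAt.mul (d3'.pow 2)))).congr_deriv ?_
    have e1 : r2 t ^ (3 / 2 : ℝ) = √(r2 t) ^ 3 := by
      rw [Real.sqrt_eq_rpow, ← Real.rpow_natCast, ← Real.rpow_mul hr]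
      norm_num
    have e2 : √(r2 t) ^ 4 = r2 t ^ 2 := by
      rw [show (4 : ℕ) = 2 * 2 from rfl, pow_mul, Real.sq_sqrt hr]
    have e3 : r2 t ^ ((3 / 2 : ℝ) - 1) = √(r2 t) := by rw [Real.sqrt_eq_rpow]; norm_num
    simp only [hG', Pi.add_apply, Pi.mul_apply, Pi.pow_apply, e1, e2, e3, Real.sq_sqrt hr]
    push_cast
    ring
  have hle : ∀ t ∈ Ioo (0 : ℝ) 1, integrand4 t (F t) (D t) (J t) ≤ G' t := by
    intro t ht
    have hr : 0 ≤ r2 t := hr0 t (Ioo_subset_Icc_self ht)
    have h1 := mul_le_mul_of_nonneg_left (pade (hJ0 t (Ioo_subset_Icc_self ht)))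
      (show 0 ≤ 9 / 4 * r2 t by positivity)
    have hk : 16 / (3 * π) ≤ kap4 := by
      rw [kap4, div_le_iff₀ (by positivity)]
      linarith [Real.pi_gt_d6]
    have hd : 0 ≤ F t ^ 3 - √(1 - t ^ 2) ^ 3 :=
      sub_nonneg.2 (pow_le_pow_left₀ (Real.sqrt_nonneg _) (hgF t (Ioo_subset_Icc_self ht)) 3)
    have h2 := mul_le_mul_of_nonneg_right hk hd
    simp only [integrand4, hG', hq, hr2] at h1 ⊢
    linarith
  have hfd : ∀ t ∈ Ioo (0 : ℝ) 1, HasDerivWithinAt f (D t) (Ioi t) t := fun t ht => by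
    refine (hder t ht).1.congr_of_eventuallyEq ?_ (hFe t ⟨ht.1.le, ht.2⟩).symm
    filter_upwards [Ioo_mem_nhdsGT ht.2] with x hx using (hFe x ⟨ht.1.le.trans hx.1.le, hx.2⟩).symm
  have hpos : ∀ t ∈ Ioo (0 : ℝ) 1, 0 ≤ G' t ∧ (√(1 - t ^ 2) < F t → 0 < G' t) := by
    intro t ht
    have hstrict : √(1 - t ^ 2) < F t → 0 < G' t := by
      intro hlt
      have hJt := hJd t
      refine lt_of_lt_of_le (hcert t (F t) (D t) (J t) ht.1 ht.2 hlt ?_
        (hJ0 t (Ioo_subset_Icc_self ht)) ?_ fun _ => ?_) (hle t ht)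
      · refine slope_bound (by nlinarith [ht.1, ht.2]) fun s hs => ?_
        refine (hge s ⟨hs.1.le, hs.2.le⟩).trans ?_
        rw [hFe t ⟨ht.1.le, ht.2⟩]
        exact le_tangent hc ⟨by linarith [ht.1], ht.2⟩ (hfd t ht) hs
      · -- chord
        have hlin : ∀ s ∈ Icc (0 : ℝ) t, (1 + (F t - 1) / t * s) ^ 2 ≤ F s ^ 2 := by
          intro s hs
          have hst : s / t ≤ 1 := (div_le_one ht.1).2 hs.2
          have hs0 : 0 ≤ s / t := div_nonneg hs.1 ht.1.le
          have hFt : 0 ≤ F t := (Real.sqrt_nonneg _).trans (hgF t (Ioo_subset_Icc_self ht))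
          have h := hc.2 (show (0 : ℝ) ∈ Icc (-1 : ℝ) 1 by norm_num)
            (show t ∈ Icc (-1 : ℝ) 1 from ⟨by linarith [ht.1], ht.2.le⟩)
            (sub_nonneg.2 hst) hs0 (by ring)
          simp only [smul_eq_mul, mul_zero, zero_add, div_mul_cancel₀ s ht.1.ne'] at h
          rw [← hFe s ⟨hs.1, hs.2.trans_lt ht.2⟩, ← hFe t ⟨ht.1.le, ht.2⟩] at h
          have h0 : 1 ≤ f 0 := le_trans (by simp) (hge 0 (by norm_num))
          have h1 : (1 - s / t) * 1 ≤ (1 - s / t) * f 0 :=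
            mul_le_mul_of_nonneg_left h0 (sub_nonneg.2 hst)
          have e : 1 + (F t - 1) / t * s = (1 - s / t) * 1 + s / t * F t := by ring
          rw [e]
          refine pow_le_pow_left₀ (add_nonneg (mul_nonneg (sub_nonneg.2 hst) zero_le_one)
            (mul_nonneg hs0 hFt)) ?_ 2
          linarith
        have hm : ∫ s in (0 : ℝ)..t, ((1 + (F t - 1) / t * s) ^ 2 + s ^ 2 - 1) ≤
            ∫ s in (0 : ℝ)..t, r2 s := integral_mono_on ht.1.le
          (Continuous.intervalIntegrable (by fun_prop) _ _) (hr2c.intervalIntegrable _ _)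
          fun s hs => by
            have := hlin s hs
            simp only [hr2]; linarith
        have hv : ∫ s in (0 : ℝ)..t, ((1 + (F t - 1) / t * s) ^ 2 + s ^ 2 - 1) =
            t * (F t ^ 2 + F t - 2 + t ^ 2) / 3 := by
          set a := (F t - 1) / t with ha
          have hat : F t = 1 + a * t := by rw [ha, div_mul_cancel₀ _ ht.1.ne']; ring
          rw [integral_congr (g := fun s => 2 * a * s + (a ^ 2 + 1) * s ^ 2) fun s _ => by ring,
            intervalIntegral.integral_add (Continuous.intervalIntegrable (by fun_prop) _ _)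
              (Continuous.intervalIntegrable (by fun_prop) _ _),
            intervalIntegral.integral_const_mul, intervalIntegral.integral_const_mul, integral_id,
            integral_pow, hat]
          norm_num
          ring
        simp only [hJ]
        linarith
      · have hm : ∫ s in (0 : ℝ)..t, (F t ^ 2 + s ^ 2 - 1) ≤ ∫ s in (0 : ℝ)..t, r2 s :=
          integral_mono_on ht.1.le (Continuous.intervalIntegrable (by fun_prop) _ _)
            (hr2c.intervalIntegrable _ _) fun s hs => by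
              have := pow_le_pow_left₀
                ((Real.sqrt_nonneg _).trans (hgF t (Ioo_subset_Icc_self ht)))
                (hanti ⟨hs.1, hs.2.trans ht.2.le⟩ (Ioo_subset_Icc_self ht) hs.2) 2
              simp only [hr2]; linarith
        have hv : ∫ s in (0 : ℝ)..t, (F t ^ 2 + s ^ 2 - 1) =
            t * (3 * F t ^ 2 - 3 + t ^ 2) / 3 := by
          rw [integral_congr (g := fun s => (F t ^ 2 - 1) + s ^ 2) fun s _ => by ring,
            intervalIntegral.integral_add (_root_.intervalIntegrable_const)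
              (Continuous.intervalIntegrable (by fun_prop) _ _),
            intervalIntegral.integral_const, integral_pow]
          norm_num
          ring
        simp only [hJ]
        linarith
    refine ⟨?_, hstrict⟩
    rcases (hgF t (Ioo_subset_Icc_self ht)).eq_or_lt with h | h
    · have := hle t ht
      rwa [integrand4_eq_zero (by nlinarith [ht.1, ht.2]) h.symm] at this
    · exact (hstrict h).le
  have hmono := @mono_of_right_deriv G G' hGc (fun t ht => ⟨hGd t ht, (hpos t ht).1⟩)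
  have hG0 : G 0 = 0 := by simp [hG, hJ, c3, c4]
  -- the value at `1`
  set A := ∫ s in (0 : ℝ)..1, F s ^ 2 with hA
  set B := ∫ s in (0 : ℝ)..1, F s ^ 3 with hB
  have i2 : ∫ t in Icc (-1 : ℝ) 1, f t ^ 2 = 2 * A := by
    simpa using key 2 (fun _ => 1) continuous_const fun _ => rfl
  have i3 : ∫ t in Icc (-1 : ℝ) 1, f t ^ 3 = 2 * B := by
    simpa using key 3 (fun _ => 1) continuous_const fun _ => rfl
  have hJ1 : 1 + J 1 = 3 / 2 * A := by
    simp only [hJ, hr2]
    rw [intervalIntegral.integral_sub (Continuous.intervalIntegrable (by fun_prop) _ _)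
        _root_.intervalIntegrable_const,
      intervalIntegral.integral_add (Continuous.intervalIntegrable (by fun_prop) _ _)
        (Continuous.intervalIntegrable (by fun_prop) _ _),
      intervalIntegral.integral_const, integral_pow, ← hA]
    norm_num
    ring
  have hq1 : ∫ s in (0 : ℝ)..1, q s ≤ 1 - 16 / (3 * π) * B := by
    have m5 : ∫ t in Icc (-1 : ℝ) 1, f t ^ 5 = 2 * ∫ s in (0 : ℝ)..1, F s ^ 5 := by
      simpa using key 5 (fun _ => 1) continuous_const fun _ => rfl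
    have m3 : ∫ t in Icc (-1 : ℝ) 1, t ^ 2 * f t ^ 3 =
        2 * ∫ s in (0 : ℝ)..1, s ^ 2 * F s ^ 3 := by
      have := key 3 (fun t => t ^ 2) (by fun_prop) fun t => by ring
      simpa only [mul_comm (_ ^ 3 : ℝ)] using this
    have hM : ∫ s in (0 : ℝ)..1, F s ^ 5 ≤ 5 * ∫ s in (0 : ℝ)..1, s ^ 2 * F s ^ 3 := by
      norm_num at hmom
      rw [m5, m3] at hmom
      linarith
    have c1 : Continuous fun s => F s ^ 3 := by fun_prop
    have c2 : Continuous fun s => F s ^ 5 := by fun_prop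
    have c3' : Continuous fun s : ℝ => √(1 - s ^ 2) ^ 3 := by fun_prop
    have c5 : Continuous fun s : ℝ => √(1 - s ^ 2) ^ 5 := by fun_prop
    have c6 : Continuous fun s => s ^ 2 * F s ^ 3 := by fun_prop
    have c7 : Continuous fun s : ℝ => 5 * s ^ 2 * √(1 - s ^ 2) ^ 3 := by fun_prop
    have e : ∫ s in (0 : ℝ)..1, q s = -(16 / (3 * π)) * (B - 3 * π / 16) + mu4 *
        ((∫ s in (0 : ℝ)..1, F s ^ 5) - 5 * ∫ s in (0 : ℝ)..1, s ^ 2 * F s ^ 3) := by
      rw [integral_congr (g := fun s => -(16 / (3 * π)) * (F s ^ 3 - √(1 - s ^ 2) ^ 3) +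
          mu4 * (F s ^ 5 - 5 * (s ^ 2 * F s ^ 3) -
            (√(1 - s ^ 2) ^ 5 - 5 * s ^ 2 * √(1 - s ^ 2) ^ 3))) fun s _ => by simp only [hq]; ring,
        intervalIntegral.integral_add (Continuous.intervalIntegrable (by fun_prop) _ _)
          (Continuous.intervalIntegrable (by fun_prop) _ _),
        intervalIntegral.integral_const_mul, intervalIntegral.integral_const_mul,
        intervalIntegral.integral_sub (c1.intervalIntegrable _ _) (c3'.intervalIntegrable _ _),
        intervalIntegral.integral_sub (Continuous.intervalIntegrable (by fun_prop) _ _)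
          (Continuous.intervalIntegrable (by fun_prop) _ _),
        intervalIntegral.integral_sub (c2.intervalIntegrable _ _)
          ((c6.intervalIntegrable _ _).const_mul _),
        intervalIntegral.integral_sub (c5.intervalIntegrable _ _) (c7.intervalIntegrable _ _),
        intervalIntegral.integral_const_mul, integral_semi_three, integral_semi_five, sub_self,
        sub_zero]
    rw [e]
    have hmu : 0 ≤ mu4 := by norm_num [mu4]
    have := mul_nonpos_of_nonneg_of_nonpos hmu (sub_nonpos.2 hM)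
    have he : 16 / (3 * π) * (3 * π / 16) = 1 := by field_simp
    linarith
  have hG1 : G 1 ≤ (3 / 2 * A) ^ (3 / 2 : ℝ) - 16 / (3 * π) * B := by
    simp only [hG, hJ1, sub_self, zero_mul, add_zero]
    linarith
  have hpow : ((3 / 2 * A) ^ (3 / 2 : ℝ)) ^ 2 = (3 / 2 * A) ^ 3 := by
    have : 0 ≤ 3 / 2 * A := by linarith [hJ0 1 (right_mem_Icc.2 zero_le_one), hJ1]
    rw [← Real.rpow_natCast _ 2, ← Real.rpow_mul this, ← Real.rpow_natCast _ 3]
    norm_num
  have hB0 : 0 ≤ B := integral_nonneg zero_le_one fun t ht =>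
    pow_nonneg ((Real.sqrt_nonneg _).trans (hgF t ht)) _
  have h01 : 0 ≤ G 1 := hG0 ▸ hmono le_rfl zero_le_one le_rfl
  have hsq : (16 / (3 * π) * B) ^ 2 ≤ (3 / 2 * A) ^ 3 := by
    rw [← hpow]
    exact pow_le_pow_left₀ (by positivity) (by linarith) 2
  have hid : Full.profileConst 2 * (2 * B) ^ 2 = 64 / 27 * (16 / (3 * π) * B) ^ 2 := by
    rw [Vale.Agent.P237.Four.profileConst_two]; field_simp; ring
  norm_num [i2, i3]
  refine ⟨by linarith [hid, hsq, show (2 * A) ^ 3 = 64 / 27 * (3 / 2 * A) ^ 3 by ring], ?_⟩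
  intro heq t ht0 ht1
  have hlow : 16 / (3 * π) * B = (3 / 2 * A) ^ (3 / 2 : ℝ) := by
    have hJ10 := hJ0 1 (right_mem_Icc.2 zero_le_one)
    refine (pow_left_inj₀ (by positivity) (Real.rpow_nonneg (by linarith) _) two_ne_zero).1 ?_
    rw [hpow]
    linarith [hid, show (2 * A) ^ 3 = 64 / 27 * (3 / 2 * A) ^ 3 by ring]
  have hzero : ∀ x ∈ Icc (0 : ℝ) 1, G x = 0 := fun x hx =>
    le_antisymm ((hmono hx.1 hx.2 le_rfl).trans (by linarith)) (hG0 ▸ hmono le_rfl hx.1 hx.2)
  have hflat : ∀ x ∈ Ioo (0 : ℝ) 1, F x ≤ √(1 - x ^ 2) := by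
    intro x hx
    by_contra hn
    have h0 : HasDerivWithinAt G 0 (Ioi x) x := by
      refine (hasDerivWithinAt_const x (Ioi x) (0 : ℝ)).congr_of_eventuallyEq ?_
        (hzero x (Ioo_subset_Icc_self hx))
      filter_upwards [Ioo_mem_nhdsGT hx.2] with y hy using
        hzero y ⟨hx.1.le.trans hy.1.le, hy.2.le⟩
    have := (uniqueDiffWithinAt_Ioi x).eq_deriv _ (hGd x hx) h0
    exact ((hpos x hx).2 (not_le.1 hn)).ne' this
  have h0 : F 0 ≤ √(1 - (0 : ℝ) ^ 2) := by
    refine le_of_tendsto_of_tendsto (b := 𝓝[>] (0 : ℝ)) hFc.continuousWithinAt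
      ((by fun_prop : Continuous fun x : ℝ => √(1 - x ^ 2)).continuousWithinAt) ?_
    filter_upwards [Ioo_mem_nhdsGT (show (0 : ℝ) < 1 by norm_num)] with x hx using hflat x hx
  have hhalf : ∀ x ∈ Ico (0 : ℝ) 1, f x ≤ √(1 - x ^ 2) := fun x hx => by
    rw [← hFe x hx]
    rcases hx.1.eq_or_lt with rfl | h
    · exact h0
    · exact hflat x ⟨h, hx.2⟩
  rcases le_total 0 t with h | h
  · exact hhalf t ⟨h, ht1⟩
  · have := hhalf (-t) ⟨by linarith, by linarith⟩
    rwa [he, neg_sq] at this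

/-- The same in the form of `Higher.ProfileN`. -/
theorem profileN_two (hcert : CertFour) : ProfileN 2 := by
  intro f hc he hge hmom
  rw [profConst_values.2.1, ← Vale.Agent.P237.Four.profileConst_two]
  exact profileDim_two hcert f hc he hge hmom

/-- Exact Petty inequality in `ℝ⁴` with the equality case, from the pointwise certificate. -/
theorem petty_four (hcert : CertFour) {K : Set (Statement.Space 4)}
    (hK : Statement.IsConvexBody K) :
    Statement.pettyConst 4 * Statement.vol K ^ 3 ≤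
        Statement.vol (Statement.projectionBody K) ∧
      (Statement.vol (Statement.projectionBody K) =
          Statement.pettyConst 4 * Statement.vol K ^ 3 ↔
        ∃ (a : Statement.Space 4) (T : Statement.Space 4 →ₗ[ℝ] Statement.Space 4),
          Function.Injective T ∧ K = (fun x => a + T x) '' Metric.closedBall 0 1) :=
  Vale.Agent.P237.Four.petty_four_of (profileDim_two hcert) hK

end Vale.Agent.P237.Higher.Four
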