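import Vale.Agent.P154.InvPoly

/-!
# P237: integer polynomial expressions in two variables, checked nonnegative on the unit square

`PE` is an expression; `PE.poly` its coefficient list; `chk` runs the Bernstein test of
`P154/BinBern` along a subdivision tree, at each leaf on one of two polynomials.
-/

namespace Vale.Agent.P237.Higher.Four

open Vale.Agent.P154

/-- Integer polynomial expressions in two variables. -/
inductive PE : Type where
  | vx : PE
  | vy : PE
  | con : ℤ → PE
  | add : PE → PE → PE
  | mul : PE → PE → PE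
  | smul : ℤ → PE → PE

namespace PE

/-- The real value. -/
noncomputable def val : PE → ℝ → ℝ → ℝ
  | vx, x, _ => x
  | vy, _, y => y
  | con k, _, _ => k
  | add a b, x, y => a.val x y + b.val x y
  | mul a b, x, y => a.val x y * b.val x y
  | smul k a, x, y => k * a.val x y

/-- A power. -/
def pw (a : PE) : ℕ → PE
  | 0 => con 1
  | k + 1 => mul a (pw a k)

@[simp] lemma val_pw (a : PE) (x y : ℝ) : ∀ k, (pw a k).val x y = a.val x y ^ k
  | 0 => by simp [pw, val]
  | k + 1 => by simp [pw, val, val_pw a x y k, pow_succ']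

/-- The coefficient list. -/
def poly : PE → Bern.MP 2
  | vx => ([[], [1]] : List (List ℤ))
  | vy => ([[0, 1]] : List (List ℤ))
  | con k => ([[k]] : List (List ℤ))
  | add a b => Bern.add 2 a.poly b.poly
  | mul a b => Bern.mul 2 a.poly b.poly
  | smul k a => Bern.smul 2 k a.poly

/-- The coefficient list, evaluated before passing it on. -/
def polyK : PE → (Bern.MP 2 → Bool) → Bool
  | vx, k => k ([[], [1]] : List (List ℤ))
  | vy, k => k ([[0, 1]] : List (List ℤ))
  | con c, k => k ([[c]] : List (List ℤ))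
  | add a b, k => polyK a fun A => polyK b fun B => Bern.force 2 (Bern.add 2 A B) k
  | mul a b, k => polyK a fun A => polyK b fun B => Bern.force 2 (Bern.mul 2 A B) k
  | smul c a, k => polyK a fun A => Bern.force 2 (Bern.smul 2 c A) k

lemma polyK_eq : ∀ (e : PE) (k : Bern.MP 2 → Bool), polyK e k = k e.poly
  | vx, _ => rfl
  | vy, _ => rfl
  | con _, _ => rfl
  | add a b, k => by simp [polyK, poly, polyK_eq a, polyK_eq b, Bern.force_eq]
  | mul a b, k => by simp [polyK, poly, polyK_eq a, polyK_eq b, Bern.force_eq]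
  | smul c a, k => by simp [polyK, poly, polyK_eq a, Bern.force_eq]

end PE

/-- The point of two coordinates. -/
def pt (x y : ℝ) : ℕ → ℝ
  | 0 => x
  | _ + 1 => y

lemma ev_poly : ∀ (e : PE) (x y : ℝ), Bern.ev 2 e.poly (pt x y) = e.val x y
  | .vx, x, y => by
    show List.foldr (fun (c : List ℤ) s => List.foldr (fun (z : ℤ) r => (z : ℝ) + y * r) 0 c + x * s)
      0 ([[], [1]] : List (List ℤ)) = x
    simp only [List.foldr_cons, List.foldr_nil]; push_cast; ring
  | .vy, x, y => by
    show List.foldr (fun (c : List ℤ) s => List.foldr (fun (z : ℤ) r => (z : ℝ) + y * r) 0 c + x * s)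
      0 ([[0, 1]] : List (List ℤ)) = y
    simp only [List.foldr_cons, List.foldr_nil]; push_cast; ring
  | .con k, x, y => by
    show List.foldr (fun (c : List ℤ) s => List.foldr (fun (z : ℤ) r => (z : ℝ) + y * r) 0 c + x * s)
      0 ([[k]] : List (List ℤ)) = (k : ℝ)
    simp only [List.foldr_cons, List.foldr_nil]; ring
  | .add a b, x, y => by simp [PE.poly, PE.val, Bern.ev_add, ev_poly a, ev_poly b]
  | .mul a b, x, y => by simp [PE.poly, PE.val, Bern.ev_mul, ev_poly a, ev_poly b]
  | .smul k a, x, y => by simp [PE.poly, PE.val, Bern.ev_smul, ev_poly a]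

/-- All coefficients vanish. -/
def allZero : (n : ℕ) → Bern.MP n → Bool
  | 0, a => decide ((show ℤ from a) = 0)
  | n + 1, a => List.all a (allZero n)

lemma ev_allZero : ∀ (n : ℕ) (a : Bern.MP n), allZero n a = true → ∀ x, Bern.ev n a x = 0
  | 0, a, h, x => by
    simp only [allZero, decide_eq_true_eq] at h
    show (((show ℤ from a) : ℤ) : ℝ) = 0
    exact_mod_cast h
  | n + 1, a, h, x => by
    have h' : ∀ c ∈ (show List (Bern.MP n) from a), allZero n c = true := List.all_eq_true.mp h
    clear h
    induction a with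
    | nil => rfl
    | cons c r ih =>
      rw [Bern.ev_succ_cons, ev_allZero n c (h' c (List.mem_cons_self ..)),
        ih fun d hd => h' d (List.mem_cons_of_mem _ hd)]
      ring

/-- The expression has the coefficients `lit`. -/
def same (e : PE) (lit : Bern.MP 2) : Bool :=
  e.polyK fun A => Bern.force 2 (Bern.add 2 A (Bern.smul 2 (-1) lit)) (allZero 2)

lemma ev_same {e : PE} {lit : Bern.MP 2} (h : same e lit = true) (x y : ℝ) :
    Bern.ev 2 lit (pt x y) = e.val x y := by
  simp only [same, PE.polyK_eq, Bern.force_eq] at h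
  have := ev_allZero 2 _ h (pt x y)
  rw [Bern.ev_add, Bern.ev_smul, ev_poly] at this
  push_cast at this
  linarith

/-- A subdivision tree: variable and the degrees of the two polynomials at a node, choice of
polynomial at a leaf. -/
inductive Tr : Type where
  | leaf : Bool → Tr
  | node : ℕ → ℕ → ℕ → Tr → Tr → Tr

/-- The Bernstein test along a tree. -/
def chk : Tr → Bern.MP 2 → Bern.MP 2 → Bool
  | .leaf c, a, b => if c then Bern.nn 2 b else Bern.nn 2 a
  | .node i k k' l r, a, b =>
    decide (i < 2) && Bern.fits 2 i k a && Bern.fits 2 i k' b &&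
      (Bern.force 2 (Bern.half 2 i k false a) fun a₁ =>
        Bern.force 2 (Bern.half 2 i k' false b) fun b₁ => chk l a₁ b₁) &&
      (Bern.force 2 (Bern.half 2 i k true a) fun a₂ =>
        Bern.force 2 (Bern.half 2 i k' true b) fun b₂ => chk r a₂ b₂)

lemma chk_nonneg : ∀ (t : Tr) (a b : Bern.MP 2), chk t a b = true → ∀ x : ℕ → ℝ,
    (∀ i, 0 ≤ x i ∧ x i ≤ 1) → 0 ≤ Bern.ev 2 a x ∨ 0 ≤ Bern.ev 2 b x
  | .leaf c, a, b, h, x, hx => by
    cases c
    · exact Or.inl (Bern.ev_nonneg_of_nn 2 a (by simpa [chk] using h) x hx)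
    · exact Or.inr (Bern.ev_nonneg_of_nn 2 b (by simpa [chk] using h) x hx)
  | .node i k k' l r, a, b, h, x, hx => by
    simp only [chk, Bern.force_eq, Bool.and_eq_true, decide_eq_true_eq] at h
    obtain ⟨⟨⟨⟨hi, hfa⟩, hfb⟩, hl⟩, hr⟩ := h
    by_cases hm : x i ≤ 1 / 2
    · set y : ℕ → ℝ := fun j => if j = i then 2 * x i else x j with hy
      have h1 := chk_nonneg l _ _ hl y fun j => by
        by_cases hj : j = i
        · simp only [hy, hj, if_true]; constructor <;> linarith [(hx i).1]
        · simp only [hy, hj, if_false]; exact hx j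
      rw [Bern.ev_half 2 i k false a hfa hi y x (fun j hj => by simp [hy, hj]) (by simp [hy]),
        Bern.ev_half 2 i k' false b hfb hi y x (fun j hj => by simp [hy, hj]) (by simp [hy])] at h1
      exact h1.imp (fun h => nonneg_of_mul_nonneg_right h (by positivity))
        fun h => nonneg_of_mul_nonneg_right h (by positivity)
    · set y : ℕ → ℝ := fun j => if j = i then 2 * x i - 1 else x j with hy
      have h1 := chk_nonneg r _ _ hr y fun j => by
        by_cases hj : j = i
        · simp only [hy, hj, if_true]; constructor <;> linarith [(hx i).2, not_le.mp hm]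
        · simp only [hy, hj, if_false]; exact hx j
      rw [Bern.ev_half 2 i k true a hfa hi y x (fun j hj => by simp [hy, hj]) (by simp [hy]),
        Bern.ev_half 2 i k' true b hfb hi y x (fun j hj => by simp [hy, hj]) (by simp [hy])] at h1
      exact h1.imp (fun h => nonneg_of_mul_nonneg_right h (by positivity))
        fun h => nonneg_of_mul_nonneg_right h (by positivity)

theorem chk_sound {e e' : PE} {lit lit' : Bern.MP 2} {tr : Tr} (h : same e lit = true)
    (h' : same e' lit' = true) (hc : chk tr lit lit' = true) {x y : ℝ}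
    (hx : x ∈ Set.Icc (0 : ℝ) 1) (hy : y ∈ Set.Icc (0 : ℝ) 1) :
    0 ≤ e.val x y ∨ 0 ≤ e'.val x y := by
  have := chk_nonneg tr lit lit' hc (pt x y) fun i => by
    cases i
    · exact hx
    · exact hy
  rwa [ev_same h, ev_same h'] at this

open PE in
/-- `∑ cₖ T^(k+s) M^(5-k-s)`. -/
def homP (cs : List ℤ) (T M : PE) (s : ℕ) : PE :=
  match cs with
  | [] => con 0
  | c :: r => PE.add (smul c (mul (pw T s) (pw M (5 - s)))) (homP r T M (s + 1))

open PE in
/-- The sum of `a^i b^(k-i)` for `k = 2`. -/
def sum2 (a b : PE) : PE := PE.add (mul a a) (PE.add (mul a b) (mul b b))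

open PE in
/-- The sum of `a^i b^(k-i)` for `k = 4`. -/
def sum4 (a b : PE) : PE :=
  PE.add (pw a 4) (PE.add (mul (pw a 3) b) (PE.add (mul (pw a 2) (pw b 2))
    (PE.add (mul a (pw b 3)) (pw b 4))))

/-- Numerators of the calibration. -/
def C3 : List ℤ := [156, -1874, 5761, -8192, 5517]
/-- Numerators of the calibration. -/
def C4 : List ℤ := [-16, 1177, -3993, 5995, -4734]
/-- Numerators of the calibration. -/
def D3 : List ℤ := [156, -4060, 22905, -55812, 68545, -33102]
/-- Numerators of the calibration. -/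
def D4 : List ℤ := [-16, 2386, -15510, 39952, -53645, 28404]

section Low

open PE

/-- `z²` with `z = v w`. -/
def lz2 : PE := mul (mul vx vy) (mul vx vy)
/-- The denominator of the chart. -/
def lD : PE := PE.add (con 1) lz2
/-- The numerator of `t`. -/
def lT : PE := PE.add (con 1) (smul (-1) lz2)
/-- The numerator of `f`. -/
def lF : PE := mul vx (PE.add (con 1) (mul vy vy))
/-- The numerator of `r`. -/
def lR : PE := mul vx (PE.add (con 1) (smul (-1) (mul vy vy)))
/-- The numerator of `(f + g) / v`. -/
def lW : PE := mul (PE.add (con 1) vy) (PE.add (con 1) vy)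
/-- The numerator of `P`. -/
def lPn : PE :=
  PE.add (smul 3 (mul (homP C3 lT lD 1) lD)) (smul 4 (mul (homP C4 lT lD 1) lR))
/-- The common factor. -/
def lK : PE := mul (pw lD 7) lW
/-- The terms without `X`. -/
def lBr (s : ℤ) : PE :=
  PE.add (smul 500000 (PE.add
      (smul 648 (mul (mul (pw vx 3) (sum4 (PE.add (con 1) (mul vy vy)) (smul 2 vy))) (pw lD 4)))
      (mul lW (PE.add (PE.add (smul 4 (mul (mul (homP D3 lT lD 0) lR) lD))
          (smul 4 (mul (mul (homP D4 lT lD 0) lR) lR)))
        (PE.add (smul (-2) (mul (mul lT lR) lPn)) (smul (2 * s) (mul (mul lF lPn) lD)))))))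
    (smul (-4) (mul (mul (mul (PE.add (smul (1024 * 848827) (mul lD lD))
      (smul (810 * 500000) (mul lT lT))) vx)
        (sum2 (PE.add (con 1) (mul vy vy)) (smul 2 vy))) (pw lD 4)))
/-- The numerator of `X`. -/
def lXN : PE :=
  mul lT (PE.add (PE.add (mul lF lF) (mul lF lD)) (PE.add (smul (-2) (mul lD lD)) (mul lT lT)))
/-- The certificate polynomial with the trivial bound on `X`. -/
def lowZE (s : ℤ) : PE := PE.add (smul (9215 * 500000) lK) (lBr s)
/-- The certificate polynomial with the chord bound on `X`. -/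
def lowXE (s : ℤ) : PE :=
  PE.add (PE.add (smul (9216 * 500000) (mul (PE.add (smul 8 (pw lD 3)) (smul 3 lXN)) lK))
      (smul (-500000) (mul (PE.add (smul 8 (pw lD 3)) lXN) lK)))
    (mul (PE.add (smul 8 (pw lD 3)) lXN) (lBr s))

end Low

section High

open PE

/-- The denominator of `t`. -/
def hM : PE := PE.add (con 1) (mul vx vx)
/-- The numerator of `t`. -/
def hT : PE := PE.add (con 1) (smul (-1) (mul vx vx))
/-- The numerator of `f`. -/
def hF : PE := PE.add (con 1) (mul (mul vx vy) (mul vx vy))
/-- The numerator of `r`. -/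
def hR : PE := PE.add (con 1) (smul (-1) (mul (mul vx vy) (mul vx vy)))
/-- The numerator of `g`. -/
def hG : PE := smul 2 (mul vx vy)
/-- The numerator of `P`. -/
def hPn : PE :=
  PE.add (smul 3 (mul (mul (homP C3 hT hM 1) hM) vy)) (smul 4 (mul (homP C4 hT hM 1) hR))
/-- The common factor. -/
def hK : PE := mul (mul (pw hM 7) (pw vy 3)) (PE.add hF hG)
/-- The terms without `X`. -/
def hBr (s : ℤ) : PE :=
  PE.add (smul 500000 (PE.add (smul 648 (mul (sum4 hF hG) (pw hM 4)))
      (mul (PE.add hF hG) (PE.add
        (PE.add (smul 4 (mul (mul (mul (homP D3 hT hM 0) hR) hM) (mul vy vy)))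
          (smul 4 (mul (mul (mul (homP D4 hT hM 0) hR) hR) vy)))
        (PE.add (smul (-2) (mul (mul (mul vy hT) hR) hPn))
          (smul (2 * s) (mul (mul (mul vy hF) hPn) hM)))))))
    (smul (-4) (mul (mul (mul (PE.add (smul (1024 * 848827) (mul hM hM))
      (smul (810 * 500000) (mul hT hT))) (mul vy vy)) (sum2 hF hG)) (pw hM 4)))
/-- The numerator of `X`. -/
def hXN : PE :=
  mul hT (PE.add (PE.add (smul 3 (mul hF hF)) (smul (-3) (mul (mul vy vy) (mul hM hM))))
    (mul (mul vy vy) (mul hT hT)))
/-- The certificate polynomial. -/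
def highE (s : ℤ) : PE :=
  PE.add (PE.add
      (smul (9216 * 500000) (mul (PE.add (smul 8 (mul (mul vy vy) (pw hM 3))) (smul 3 hXN)) hK))
      (smul (-500000) (mul (PE.add (smul 8 (mul (mul vy vy) (pw hM 3))) hXN) hK)))
    (mul (PE.add (smul 8 (mul (mul vy vy) (pw hM 3))) hXN) (hBr s))

end High

end Vale.Agent.P237.Higher.Four
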